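import Vale.Agent.P284.H650.T.Spec

/-!
# P284 (helper625), T3⁺, (N1): the output of the limit on `(Y, G)`, in the charts of `X`
-/

open scoped Manifold ContDiff Topology InnerProductSpace ComplexConjugate
open Filter Set Metric

noncomputable section

set_option linter.unusedSectionVars false

namespace Vale.Agent.P284.H625.T

open Vale.Agent.P272.K Vale.Agent.P284.H573 Vale.Agent.P284.H619 Vale.Agent.P284.H894.G
  Vale.Agent.P284.H501 Vale.Agent.P284.H501.Core Vale.Agent.P284.H894.W Vale.Agent.P284.H625.N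
  Vale.Agent.P284.H494 Vale.Agent.P284.H650.T

section
variable {n q : ℕ} {X Y E W : Type} [TopologicalSpace X] [TopologicalSpace Y]
  [ChartedSpace (Cm n) X] [ChartedSpace (Cm n) Y] [TopologicalSpace E] {p : E → X} {pY : E → Y}
  {π : Y → X} {F : E → Cm q} [NormedAddCommGroup W] [InnerProductSpace ℂ W]
  {J : W →SL[starRingEnd ℂ] W}

theorem rv_fl (h : H885.Etale n π) (hpi : ∀ y, π (pY y) = p y) : RV n pY F = RV n p F := by
  ext t
  exact forall_congr' fun y => imp_congr_right fun _ => reg_fl h hpi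

theorem vPotJ_fl (h : H885.Etale n π) (hY : Continuous pY) (hpi : ∀ y, π (pY y) = p y) {t : Cm q}
    {Θ : E → Chart n Y → (Cm n →L[ℂ] W)} {u : E → W}
    (hc : ∀ y, F y = t → ChgV pY F Θ y) (hu : VPotJ pY F t Θ J u) :
    VPotJ p F t (fl pY π Θ) J u := by
  intro y e G hy he hG hGd
  obtain ⟨h1, h2⟩ := br_at h hpi he
  obtain ⟨c₀, hc₀⟩ := hu y _ G hy h1 (by rw [ap hpi h2]; exact hG) (by
    filter_upwards [hGd, near_src hY h1] with y' h3 h4 h5 ξ hξ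
    have hξ' : ξ ∈ VS p F y' e := by rwa [vs_fl hpi h2] at hξ
    rw [ap hpi h2, h3 h5 ξ hξ', flT_eq h hpi (hc y' h5) h4 h2 hξ'])
  refine ⟨c₀, ?_⟩
  filter_upwards [hc₀] with y' h3 h5
  rw [h3 h5, ap hpi h2]

theorem jPot_fl (h : H885.Etale n π) (hY : Continuous pY) (hpi : ∀ y, π (pY y) = p y) {y : E}
    {Θ : E → Chart n Y → (Cm n →L[ℂ] W)} {e : Chart n X} {e' : Chart n Y} {G : Cm n → W}
    (hc : ∀ᶠ y' in 𝓝 y, ChgV pY F Θ y') (he : At e' (pY y)) (hb : H885.IsBranch π e' e)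
    (hJ : JPot p F (fl pY π Θ) y e G) : JPot pY F Θ y e' G := by
  refine ⟨by rw [ap hpi hb]; exact hJ.an, ?_⟩
  filter_upwards [hJ.pot, hc, near_src hY he] with y' h1 h2 h3 ξ hξ
  have hξ' : ξ ∈ VS p F y' e := by rwa [vs_fl hpi hb] at hξ
  rw [ap hpi hb, h1 ξ hξ', flT_eq h hpi h2 h3 hb hξ']

theorem twoPot_fl (h : H885.Etale n π) (hY : Continuous pY) (hpi : ∀ y, π (pY y) = p y)
    {Θ : E → Chart n Y → (Cm n →L[ℂ] W)} {T : E → E → W}
    (hc : ∀ y, F y ∈ RV n p F → ∀ᶠ y' in 𝓝 y, ChgV pY F Θ y') (hT : TwoPot pY F Θ J T) :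
    TwoPot p F (fl pY π Θ) J T := by
  refine ⟨fun y y' y'' h1 h2 h3 => hT.add y y' y'' h1 h2 (by rw [rv_fl h hpi]; exact h3),
    fun y y' e e' G G' hF hr he he' hG hG' => ?_⟩
  obtain ⟨h1, h2⟩ := br_at h hpi he
  obtain ⟨h3, h4⟩ := br_at h hpi he'
  obtain ⟨a, ha, hev⟩ := hT.loc y y' _ _ G G' hF (by rw [rv_fl h hpi]; exact hr) h1 h3
    (jPot_fl h hY hpi (hc y hr) h1 h2 hG) (jPot_fl h hY hpi (hc y' (by rw [← hF]; exact hr)) h3 h4 hG')
  refine ⟨a, ha, ?_⟩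
  filter_upwards [hev] with z h5 h6
  rw [h5 h6, ap hpi h2, ap hpi h4]

theorem tEqui_fl {Γ : Type} [Group Γ] [MulAction Γ E] {ρ : Γ →* (W ≃ₗᵢ[ℂ] W)} {T : E → E → W}
    (h : H885.Etale n π) (hpi : ∀ y, π (pY y) = p y) (hT : TEqui n pY F ρ T) :
    TEqui n p F ρ T := fun g y y' hF hr => hT g y y' hF (by rw [rv_fl h hpi]; exact hr)

end

end Vale.Agent.P284.H625.T
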