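import Vale.Agent.P284.H625.T.Fl
import Vale.Agent.P284.H625.N.FlL
import Vale.Agent.P284.H366.J.Res

/-!
# P284 (helper625), T3⁺, (N1): restriction to the closed span of the values of `S` and `J S`, under the
whole group
-/

open scoped Manifold ContDiff Topology InnerProductSpace ComplexConjugate
open Filter Set Metric

noncomputable section

set_option linter.unusedSectionVars false

namespace Vale.Agent.P284.H625.T

open Vale.Agent.P272.K Vale.Agent.P284.H573 Vale.Agent.P284.H619 Vale.Agent.P284.H894.G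
  Vale.Agent.P284.H501 Vale.Agent.P284.H501.Core Vale.Agent.P284.H894.W Vale.Agent.P284.H625.N
  Vale.Agent.P284.H494 Vale.Agent.P284.H650.T Vale.Agent.P284.H275

section
variable {n q m : ℕ} {X E : Type} [TopologicalSpace X] [ChartedSpace (Cm n) X]
  [TopologicalSpace E] {p : E → X} {F : E → Cm q}
  {W W₀ : Type} [NormedAddCommGroup W] [InnerProductSpace ℂ W] [NormedAddCommGroup W₀]
  [InnerProductSpace ℂ W₀] {S : E → Chart n X → Cm n [⋀^Fin (q + 1)]→L[ℂ] W}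
  {Θ : E → Chart n X → (Cm n →L[ℂ] W)}
  {w : Chart n X → Cm n → Matrix (Fin n) (Fin n) ℂ} {B : ℝ}

/-- the values of `S` are stable under scalars -/
theorem vals_smul {a : W} (ha : a ∈ vals p S) (t : ℂ) : t • a ∈ vals p S := by
  obtain ⟨y, e, ξ, he, rfl⟩ := ha
  refine ⟨y, e, Function.update ξ 0 (t • ξ 0), he, ?_⟩
  rw [ContinuousAlternatingMap.map_update_smul, Function.update_eq_self]

/-- the values of `Θ` on vertical vectors are values of `S` -/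
theorem th_mem [IsManifold 𝓘(ℂ, Cm n) ω X] (hp : IsCoveringMap p) (hF : HolB p w F B) (hrel : RelS p F S) (hth : IsTh p F S Θ)
    {y : E} {e : Chart n X} (hy : Reg (n := n) p F y) (he : At e (p y)) {ξ : Cm n}
    (hξ : ξ ∈ VS p F y e) : Θ y e ξ ∈ vals p S := by
  obtain ⟨f, hf⟩ := rep_exists hF y e he
  have hsu := (H338.reg_iff hp.isLocalHomeomorph he hf).1 hy
  obtain ⟨J, hJ⟩ := dL_ne hsu
  have hR : RelP (fderiv ℂ f (e (p y))) (S y e) :=
    fun ξ i j hij hi hj => hrel.rel y e f he hf hsu ξ i j hij hi hj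
  have h1 := hth y e f he hf hsu _ (isW_sl hR hsu hJ) ξ ((mem_VS' hp he hf).1 hξ)
  rw [h1, smul_apply, sl_apply]
  exact vals_smul ⟨y, e, _, he, rfl⟩ _

/-- the relative form of `P ∘ S` -/
theorem th_map (P : W →L[ℂ] W₀) (hrel : RelS p F S) (hth : IsTh p F S Θ) :
    IsTh p F (mapF P S) (mapT P Θ) := by
  intro y e f he hf hs Θ' hΘ' ξ hξ
  have hR : RelP (fderiv ℂ f (e (p y))) (S y e) :=
    fun ξ i j hij hi hj => hrel.rel y e f he hf hs ξ i j hij hi hj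
  obtain ⟨Θ₁, hΘ₁⟩ := H501.exists_isW hR hs
  have h1 : IsW (fderiv ℂ f (e (p y))) (mapF P S y e) (P.comp Θ₁) := by
    refine isW_of_snoc hs fun u η hη => ?_
    rw [mapF_apply, hΘ₁.snoc u hη, map_smul]
    rfl
  rw [hΘ'.eq_vert hs h1 hξ, mapT_apply, hth y e f he hf hs _ hΘ₁ ξ hξ]
  rfl

variable {Γ : Type} [Group Γ] [MulAction Γ E] {π : Γ →* (W ≃ₗᵢ[ℂ] W)} {A : Set W} {P : W →L[ℂ] W₀}
  {I : W₀ →ₗᵢ[ℂ] W} {π₀ : Γ →* (W₀ ≃ₗᵢ[ℂ] W₀)} {C : W →SL[starRingEnd ℂ] W} {t : Cm q}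

theorem vPotJ_map [CompleteSpace W₀] (hp : IsCoveringMap p) (h : Restr π A W₀ P I π₀) {u : E → W}
    (hΘ : ∀ y e, F y = t → At e (p y) → ∀ ξ ∈ VS p F y e, I (P (Θ y e ξ)) = Θ y e ξ)
    (hu : VPotJ p F t Θ C u) :
    VPotJ p F t (mapT P Θ) (H366.J.cj₀ P I C) (fun y => P (u y)) := by
  intro y e g hy he hg hgd
  have hev : ∀ᶠ y' in 𝓝 y, AnalyticAt ℂ g (e (p y')) :=
    (ev_iff hp he (Q := fun z => AnalyticAt ℂ g z)).2 hg.eventually_analyticAt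
  obtain ⟨c₀, hc₀⟩ := hu y e (fun z => I (g z)) hy he
    ((I.toContinuousLinearMap.analyticAt _).comp hg) (by
      filter_upwards [hgd, at_ev hp he, hev] with y' g1 g2 g3 g4 ξ hξ
      have e1 : HasFDerivAt (fun z => I (g z)) (I.toContinuousLinearMap.comp
          (fderiv ℂ g (e (p y')))) (e (p y')) :=
        I.toContinuousLinearMap.hasFDerivAt.comp _ g3.differentiableAt.hasFDerivAt
      rw [e1.fderiv]
      show I (fderiv ℂ g (e (p y')) ξ) = _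
      rw [g1 g4 ξ hξ, mapT_apply, hΘ y' e g4 g2 ξ hξ])
  refine ⟨P c₀, ?_⟩
  filter_upwards [hc₀] with y' g1 g2
  show P (u y') = _
  rw [g1 g2, map_add, map_add, h.PJ, H366.J.cj₀_apply]

theorem jPot_map [CompleteSpace W₀] [IsManifold 𝓘(ℂ, Cm n) ω X] (hp : IsCoveringMap p) (hF : HolB p w F B) {y : E}
    {e : Chart n X} {g : Cm n → W₀} (hy : Reg (n := n) p F y) (he : At e (p y))
    (hΘ : ∀ y e, Reg (n := n) p F y → At e (p y) → ∀ ξ ∈ VS p F y e, I (P (Θ y e ξ)) = Θ y e ξ)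
    (h : JPot p F (mapT P Θ) y e g) : JPot p F Θ y e fun z => I (g z) := by
  have hev : ∀ᶠ y' in 𝓝 y, AnalyticAt ℂ g (e (p y')) :=
    (ev_iff hp he (Q := fun z => AnalyticAt ℂ g z)).2 h.an.eventually_analyticAt
  refine ⟨(I.toContinuousLinearMap.analyticAt _).comp h.an, ?_⟩
  filter_upwards [h.pot, at_ev hp he, hev, (H10.reg_open hp hF).mem_nhds hy] with y' g1 g2 g3 g4 ξ hξ
  have e1 : HasFDerivAt (fun z => I (g z)) (I.toContinuousLinearMap.comp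
      (fderiv ℂ g (e (p y')))) (e (p y')) :=
    I.toContinuousLinearMap.hasFDerivAt.comp _ g3.differentiableAt.hasFDerivAt
  rw [e1.fderiv]
  show I (fderiv ℂ g (e (p y')) ξ) = _
  rw [g1 ξ hξ, mapT_apply, hΘ y' e g4 g2 ξ hξ]

theorem twoPot_map [CompleteSpace W₀] [IsManifold 𝓘(ℂ, Cm n) ω X] (hp : IsCoveringMap p) (hF : HolB p w F B)
    (h : Restr π A W₀ P I π₀) (hA : ∀ a ∈ A, C a ∈ A) (hC : H366.J.IsConj π C)
    (hΘ : ∀ y e, Reg (n := n) p F y → At e (p y) → ∀ ξ ∈ VS p F y e, I (P (Θ y e ξ)) = Θ y e ξ)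
    {T : E → E → W} (hT : TwoPot p F Θ C T) :
    TwoPot p F (mapT P Θ) (H366.J.cj₀ P I C) (fun y y' => P (T y y')) := by
  refine ⟨fun y y' y'' h1 h2 h3 => ?_, fun y y' e e' g g' hFy hr he he' hg hg' => ?_⟩
  · rw [← map_add, hT.add y y' y'' h1 h2 h3]
  · obtain ⟨a, ha, hev⟩ := hT.loc y y' e e' _ _ hFy hr he he'
      (jPot_map hp hF (hr y rfl) he hΘ hg) (jPot_map hp hF (hr y' hFy.symm) he' hΘ hg')
    refine ⟨fun t => P (a t), (P.analyticAt _).comp ha, ?_⟩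
    filter_upwards [hev] with z h1 h2
    rw [h1 h2, map_add, map_add, map_sub, h.PJ, h.PJ, map_add C, map_sub C, map_add P, map_sub P,
      map_add (H366.J.cj₀ P I C), map_sub (H366.J.cj₀ P I C), H366.J.cj₀_P h hA hC,
      H366.J.cj₀_apply, H366.J.cj₀_apply]

/-- **restriction to the closed span**, natural for `Γ` -/
theorem restr_out [CompleteSpace W] [IsManifold 𝓘(ℂ, Cm n) ω X] {G : Subgroup Γ} {c : Γ → Cm q}
    {T : E → E → W} (hG : IsGalois Γ p) (hF : HolB p w F B)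
    (hrel : SRel p F (π.comp G.subtype) S Θ) (hJ : IsJ π C)
    (hvals : ∀ γ, ∀ a ∈ vals p S, π γ a ∈ vals p S)
    (hpot : ∀ t : Cm q, IsConnected (F ⁻¹' {t}) → (∀ y, F y = t → Reg (n := n) p F y) →
      ∃ u : E → W, (∀ g : G, c g = 0 → ∃ b : W, ∀ y, F y = t → u (g • y) = π g (u y) + b) ∧
        VPotJ p F t Θ C u)
    (htwo : TwoPot p F Θ C T) (hT : TEqui n p F π T)
    (hequi : ∀ (γ : Γ) y e, Reg (n := n) p F y → At e (p y) → ∀ ξ ∈ VS p F y e,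
      Θ (γ • y) e ξ = π γ (Θ y e ξ)) :
    ∃ (W₀ : Type) (_ : NormedAddCommGroup W₀) (_ : InnerProductSpace ℂ W₀) (_ : CompleteSpace W₀)
      (ρ : Γ →* (W₀ ≃ₗᵢ[ℂ] W₀)) (S₀ : E → Chart n X → Cm n [⋀^Fin (q + 1)]→L[ℂ] W₀)
      (Θ₀ : E → Chart n X → (Cm n →L[ℂ] W₀)) (J₀ : W₀ →SL[starRingEnd ℂ] W₀) (T₀ : E → E → W₀),
      JDatN G p F c ρ S₀ Θ₀ J₀ T₀ ∧ ∀ z, π z = 1 → ρ z = 1 := by
  have hp := hG.cov
  have hC : H366.J.IsConj π C := ⟨hJ.invol, hJ.inner, hJ.comm⟩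
  obtain ⟨W₀, i1, i2, i3, P, I, π₀, hR⟩ := H366.J.exists_restrJ π (vals p S) hvals hC
  have hAC := H366.J.conj_mem hC (vals p S)
  have hC₀ := H366.J.isConj_cj₀ hR hAC hC
  have hIP : ∀ a ∈ vals p S, I (P a) = a := fun a ha => hR.JP _ (Or.inl ha)
  have hΘ : ∀ y e, Reg (n := n) p F y → At e (p y) → ∀ ξ ∈ VS p F y e,
      I (P (Θ y e ξ)) = Θ y e ξ := fun y e hy he ξ hξ =>
    hIP _ (th_mem hp hF hrel.rel hrel.th hy he hξ)
  have hrel₀ : SRel p F (π₀.comp G.subtype) (mapF P S) (mapT P Θ) := by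
    refine ⟨relS_map hp P hrel.rel, fun y e s' he hs' hev =>
      closed_map hp P hrel.rel.form hrel.closed y e s' he hev, fun g y e he ξ => ?_, ?_,
      th_map P hrel.rel hrel.th⟩
    · rw [mapF_apply, hrel.equi g y e he ξ]
      exact hR.Pπ g _
    · obtain ⟨y, e, he, ξ, hne⟩ := hrel.ne
      refine ⟨y, e, he, ξ, fun h0 => hne ?_⟩
      have h1 : P (S y e ξ) = 0 := h0
      rw [← hIP _ ⟨y, e, ξ, he, rfl⟩, h1, map_zero]
  refine ⟨W₀, i1, i2, i3, π₀, mapF P S, mapT P Θ, H366.J.cj₀ P I C, fun y y' => P (T y y'),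
    ⟨⟨hrel₀, ⟨hC₀.inv, hC₀.inner, fun g x => hC₀.comm g x⟩, fun x hx hx' => ?_,
      fun t hcon hreg => ?_⟩, ⟨hC₀.inv, hC₀.inner, hC₀.comm⟩,
      twoPot_map hp hF hR hAC hC hΘ htwo, fun g y y' h1 h2 => ?_,
      fun y hy => chgV_of hp hF hrel₀ y hy, fun γ y e hy he ξ hξ => ?_⟩, fun z hz => ?_⟩
  · refine hR.dense x ?_
    rintro _ (⟨y, e, ξ, he, rfl⟩ | ⟨_, ⟨y, e, ξ, he, rfl⟩, rfl⟩)
    · exact hx y e he ξ
    · rw [← H366.J.cj₀_P hR hAC hC, hC₀.inner_right]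
      have := hx' y e he ξ
      rw [mapF_apply] at this
      rw [this, map_zero]
  · obtain ⟨u, hu, hu'⟩ := hpot t hcon hreg
    refine ⟨fun y => P (u y), fun g hg => ?_,
      vPotJ_map hp hR (fun y e hy he ξ hξ => hΘ y e (hreg y hy) he ξ hξ) hu'⟩
    obtain ⟨b, hb⟩ := hu g hg
    refine ⟨P b, fun y hy => ?_⟩
    show P (u (g • y)) = _
    rw [hb y hy, map_add, hR.Pπ]
    rfl
  · show P (T (g • y) (g • y')) = _
    rw [hT g y y' h1 h2, hR.Pπ]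
  · rw [mapT_apply, mapT_apply, hequi γ y e hy he ξ hξ, hR.Pπ]
  · refine hR.triv z fun a _ => ?_
    rw [hz]
    rfl

end

end Vale.Agent.P284.H625.T
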