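import Vale.Agent.P284.H625.T.Sum
import Vale.Agent.P284.H625.T.Res
import Vale.Agent.P284.H885.Cov
import Vale.Agent.P284.H213.G.Rep

/-!
# P284 (helper625), T3⁺, (N1): `LimNStmt`
-/

open scoped Manifold ContDiff Topology InnerProductSpace ComplexConjugate
open Filter Set Metric

noncomputable section

set_option linter.unusedSectionVars false

namespace Vale.Agent.P284.H625.T

open Vale.Agent.P272.K Vale.Agent.P284.H573 Vale.Agent.P284.H619 Vale.Agent.P284.H894.G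
  Vale.Agent.P284.H501 Vale.Agent.P284.H501.Core Vale.Agent.P284.H894.W Vale.Agent.P284.H625.N
  Vale.Agent.P284.H494 Vale.Agent.P284.H650.T Vale.Agent.P284.H275 Vale.Agent.P284.H119.Kaz
  Vale.Agent.P284.H494.N Vale.Agent.P284.H213.Grp

section
variable {n q : ℕ} {X Y E Γ : Type} [TopologicalSpace X] [TopologicalSpace Y]
  [ChartedSpace (Cm n) X] [ChartedSpace (Cm n) Y] [IsManifold 𝓘(ℂ, Cm n) ω X]
  [IsManifold 𝓘(ℂ, Cm n) ω Y]
  [TopologicalSpace E] [Group Γ] [MulAction Γ E] {p : E → X} {pY : E → Y} {π : Y → X}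
  {F : E → Cm q} {G K : Subgroup Γ}
  {A : Γ →* (Cm q ≃ₗ[ℂ] Cm q)} {c : Γ → Cm q}
  {w : Chart n X → Cm n → Matrix (Fin n) (Fin n) ℂ}

theorem c_one (h : ADat Γ G q A c) : c 1 = 0 := by
  have h1 := h.coc 1 1
  rw [mul_one, map_one] at h1
  exact left_eq_add.1 h1

/-- `K` is a normal subgroup of `Γ` -/
theorem K_normal (h : ADat Γ G q A c) (hK : ∀ g, g ∈ K ↔ g ∈ G ∧ c g = 0) : K.Normal := by
  have hN := h.normal
  refine ⟨fun k hk γ => ?_⟩
  rw [hK] at hk ⊢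
  refine ⟨hN.conj_mem k hk.1 γ, ?_⟩
  have h1 := h.coc (γ * k) γ⁻¹
  have h2 := h.coc γ k
  have h3 := h.coc γ γ⁻¹
  rw [mul_inv_cancel, c_one h] at h3
  rw [h1, h2, hk.2, map_zero, zero_add, map_mul, h.one k hk.1, mul_one]
  exact h3.symm

theorem mulEquiv_sub (hK : K ≤ G) : Nonempty (K ≃* K.subgroupOf G) :=
  ⟨(Subgroup.subgroupOfEquivOfLe hK).symm⟩

/-- the standing data on `(Y, G)` -/
theorem std_Y (hS : StdN w G p F A c K) (het : H885.Etale n π) (hGY : IsGalois G pY)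
    (hpi : ∀ y, π (pY y) = p y) :
    Std (H885.pull π w) pY F (fun g : G => c g) (K.subgroupOf G) := by
  have hle : K ≤ G := fun g hg => ((hS.ker g).1 hg).1
  let e : K.subgroupOf G ≃* K := Subgroup.subgroupOfEquivOfLe hle
  obtain ⟨B, hB⟩ := hS.hol
  obtain ⟨y₀, hy₀⟩ := hS.reg
  refine ⟨het.isKahler hS.kah, hGY, ⟨B, het.holB hpi hB⟩, fun g y => ?_,
    ⟨y₀, (reg_fl het hpi).2 hy₀⟩, (genConn_fl het hpi).2 hS.conn, hS.dat.lat, fun g => ?_, ?_,
    fun hv => hS.nvi (virtInd_congr e.symm hv), ?_⟩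
  · have h1 := hS.eqv (g : Γ) y
    rw [hS.dat.one g g.2] at h1
    exact h1
  · rw [Subgroup.mem_subgroupOf, hS.ker]
    exact ⟨fun h => h.2, fun h => ⟨g.2, h⟩⟩
  · have := hS.fg
    exact Group.fg_of_surjective (f := e.symm.toMonoidHom) e.symm.surjective
  · exact H213.G.FinRepIn.of_finiteIndex hS.fr G hS.dat.fi

end

/-- **(N1)** -/
theorem limN_of (hLim : LimJStmt) (hTwo : TwoStmt) : LimNStmt := by
  intro n q X _ _ _ _ _ _ w E Γ _ _ _ _ p F G K A c hS hq hK Z hZn hZG hZfg hZc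
  have hN := hS.dat.normal
  have hfi := hS.dat.fi
  have hfin : Finite (Γ ⧸ G) := Subgroup.finite_quotient_of_finiteIndex
  have hft : Fintype (Γ ⧸ G) := Fintype.ofFinite _
  have hG := hS.gal
  obtain ⟨B, hB⟩ := hS.hol
  obtain ⟨Y, _, _, _, _, _, _, pY, π, het, hcov, hGY, hpi⟩ := H885.exists_quo n X E Γ p hG G hfi
  have hstd := std_Y hS het hGY hpi
  have hle : K ≤ G := fun g hg => ((hS.ker g).1 hg).1
  have hY := hGY.cov.continuous
  have hpg : ∀ (g : G) (y : E), pY (g • y) = pY y := fun g y =>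
    ((hGY.orb y (g • y)).2 ⟨g, rfl⟩).symm
  -- finitely many generators of `Z`
  obtain ⟨s, hs⟩ := (Group.fg_iff_subgroup_fg Z).1 hZfg
  have hsZ : ∀ x ∈ s, x ∈ Z := fun x hx => by
    rw [← hs]
    exact Subgroup.subset_closure hx
  have hK' : ¬ Kazhdan (K.subgroupOf G) := fun h =>
    hK (h.of_equiv (Subgroup.subgroupOfEquivOfLe hle))
  obtain ⟨W, i1, i2, i3, ρ, S, Θ, J, hJD, hζ⟩ := hLim n q Y (H885.pull π w) E G pY F
    (fun g : G => c g) (K.subgroupOf G) hstd hq hK' s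
    (fun x => ⟨x, hZG (hsZ x x.2)⟩) (fun x g => Subtype.ext (hZc x (hsZ x x.2) g g.2))
  obtain ⟨T, hT, hTe⟩ := hTwo n q Y (H885.pull π w) E G pY F
    (fun g : G => c g) (K.subgroupOf G) hstd W ρ S Θ J hJD
  have hρZ : ∀ (z : Γ) (hz : z ∈ Z), ρ ⟨z, hZG hz⟩ = 1 := by
    intro z hz
    have h1 : Z ≤ (ρ.ker).map G.subtype := by
      rw [← hs, Subgroup.closure_le]
      intro x hx
      exact ⟨⟨x, hZG (hsZ x hx)⟩, hζ ⟨x, hx⟩, rfl⟩
    obtain ⟨g, hg, hgz⟩ := h1 hz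
    have h2 : g = ⟨z, hZG hz⟩ := Subtype.ext hgz
    rw [← h2]
    exact hg
  -- the charts of `X`
  have hFA : ∀ γ y, F (γ • y) = (fun g => A g) γ (F y) + c γ := hS.eqv
  have hc : ∀ (g : G) y, F ((g : Γ) • y) = F y + (fun g : G => c g) g := hstd.eqv
  have hE : Nonempty E := ⟨hS.reg.choose⟩
  obtain ⟨BY, hBY⟩ := hstd.hol
  have hchY : ∀ y, Reg (n := n) pY F y → ChgV pY F Θ y := fun y hy =>
    chgV_of hGY.cov hBY hJD.rel y hy
  have hchY' : ∀ y, F y ∈ RV n p F → ∀ᶠ y' in 𝓝 y, ChgV pY F Θ y' := by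
    intro y hy
    filter_upwards [(H10.reg_open hG.cov hB).mem_nhds (hy y rfl)] with y' hy'
    exact hchY y' ((reg_fl het hpi).2 hy')
  have hrelX := sRel_fl het hY hpi hpg hJD.rel
  have hrel := H988.N6.sum_rel hG hB hFA hc hrelX
  refine (restr_out (c := c) (T := sumP G T) hG hB hrel (isJ_sum hJD.isJ) ?_ ?_
    (twoPot_sum hG hB hFA (twoPot_fl het hY hpi hchY' hT))
    (tEqui_sum hG hB hFA (tEqui_fl het hpi hTe)) (H551.N6.sumT_equi hG hB hFA hc hrelX)).imp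
      fun W₀ h => ?_
  · rintro γ _ ⟨y, e, ξ, he, rfl⟩
    have h1 := sumS_equi hG (A := A) hS.dat.one hrelX.equi γ y e he ξ
    have h2 := H988.N6.det_ne (A γ)
    have h3 : indR G ρ γ (sumS G (fun g => A g) (fl pY π S) y e ξ) =
        (LinearMap.det (A γ : Cm q →ₗ[ℂ] Cm q))⁻¹ •
          sumS G (fun g => A g) (fl pY π S) (γ • y) e ξ := by
      rw [← h1, smul_smul, inv_mul_cancel₀ h2, one_smul]
    rw [h3]
    exact vals_smul ⟨γ • y, e, ξ, by rw [H174.N6.p_smul hG]; exact he, rfl⟩ _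
  · intro t hcon hreg
    have h1 : ∀ i : Γ ⧸ G, ∃ u : E → W, (∀ g : G, c g = 0 → ∃ b : W, ∀ y,
        F y = A (tr G i) t + c (tr G i) → u (g • y) = ρ g (u y) + b) ∧
        VPotJ p F (A (tr G i) t + c (tr G i)) (fl pY π Θ) J u := by
      intro i
      have hrY : ∀ y, F y = A (tr G i) t + c (tr G i) → Reg (n := n) pY F y := fun y hy =>
        (reg_fl het hpi).2 (rv_smul hG hB hFA (tr G i) hreg y hy)
      obtain ⟨u, h2, h3⟩ := hJD.pot _ (conn_smul hG hFA (tr G i) hcon) hrY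
      exact ⟨u, h2, vPotJ_fl het hY hpi (fun y hy => hchY y (hrY y hy)) h3⟩
    choose u hu hu' using h1
    exact ⟨_, fun g hg => pot_sum hG hFA hc hu g hg, vPotJ_sum hG hFA hu'⟩
  · obtain ⟨j1, j2, j3, ρ₀, S₀, Θ₀, J₀, T₀, h1, h2⟩ := h
    refine ⟨j1, j2, j3, ρ₀, S₀, Θ₀, J₀, T₀, h1, fun z hz => h2 z ?_⟩
    have h3 : ∀ i : Γ ⧸ G, ρ (coc G z i) = 1 := by
      intro i
      have h4 := coc_mem G ⟨z, hZG hz⟩ i
      have h5 : (coc G z i : Γ) ∈ Z := by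
        rw [h4]
        exact hZn.conj_mem z hz _
      exact hρZ _ h5
    ext x i
    rw [indR_apply, h3, (QuotientGroup.eq_one_iff z).2 (hZG hz), mul_one]
    rfl

end Vale.Agent.P284.H625.T
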