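import Vale.Agent.P284.H625.T.Fl
import Vale.Agent.P284.H625.N.Out

/-!
# P284 (helper625), T3⁺, (N1): the real structure, the potentials and the two point potential of the
direct sum of the translates
-/

open scoped Manifold ContDiff Topology InnerProductSpace ComplexConjugate
open Filter Set Metric

noncomputable section

set_option linter.unusedSectionVars false

namespace Vale.Agent.P284.H625.T

open Vale.Agent.P272.K Vale.Agent.P284.H573 Vale.Agent.P284.H619 Vale.Agent.P284.H894.G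
  Vale.Agent.P284.H501 Vale.Agent.P284.H501.Core Vale.Agent.P284.H894.W Vale.Agent.P284.H625.N
  Vale.Agent.P284.H494 Vale.Agent.P284.H650.T Vale.Agent.P284.H174.N6

/-! ### the conjugation -/

section cj
variable {Γ : Type} [Group Γ] (G : Subgroup Γ) [Fintype (Γ ⧸ G)]
  {W : Type} [NormedAddCommGroup W] [InnerProductSpace ℂ W]

/-- the conjugation of the direct sum -/
def cjT (J : W →SL[starRingEnd ℂ] W) : Tot G W →SL[starRingEnd ℂ] Tot G W where
  toFun x := WithLp.toLp 2 fun i => J (x i)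
  map_add' x y := by
    ext i
    show J ((x + y) i) = J (x i) + J (y i)
    rw [PiLp.add_apply, map_add]
  map_smul' a x := by
    ext i
    show J ((a • x) i) = conj a • J (x i)
    rw [PiLp.smul_apply, map_smulₛₗ]
  cont := by
    refine (PiLp.continuous_toLp 2 fun _ : Γ ⧸ G => W).comp ?_
    exact continuous_pi fun i => J.continuous.comp (PiLp.continuous_apply 2 _ i)

variable {G}

theorem cjT_apply (J : W →SL[starRingEnd ℂ] W) (x : Tot G W) (i : Γ ⧸ G) :
    cjT G J x i = J (x i) := rfl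

theorem isJ_sum [G.Normal] {π : G →* (W ≃ₗᵢ[ℂ] W)} {J : W →SL[starRingEnd ℂ] W} (h : IsJ π J) :
    IsJ (indR G π) (cjT G J) := by
  refine ⟨fun x => ?_, fun x y => ?_, fun g x => ?_⟩
  · ext i
    rw [cjT_apply, cjT_apply, h.invol]
  · rw [PiLp.inner_apply, PiLp.inner_apply]
    exact Finset.sum_congr rfl fun i _ => h.inner _ _
  · ext i
    rw [cjT_apply, indR_apply, h.comm]
    rfl

end cj

section
variable {n q : ℕ} {X E Γ : Type} [TopologicalSpace X] [ChartedSpace (Cm n) X]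
  [TopologicalSpace E] [Group Γ] [MulAction Γ E] {p : E → X} {F : E → Cm q}
  {G : Subgroup Γ} [Fintype (Γ ⧸ G)]
  {W : Type} [NormedAddCommGroup W] [InnerProductSpace ℂ W]
  {S : E → Chart n X → Cm n [⋀^Fin (q + 1)]→L[ℂ] W}
  {Θ : E → Chart n X → (Cm n →L[ℂ] W)} {A : Γ → (Cm q ≃ₗ[ℂ] Cm q)} {a : Γ → Cm q}
  {J : W →SL[starRingEnd ℂ] W}

/-- the component of a function with values in the direct sum -/
def pr (G : Subgroup Γ) [Fintype (Γ ⧸ G)] (W : Type) [NormedAddCommGroup W]
    [InnerProductSpace ℂ W] (i : Γ ⧸ G) : Tot G W →L[ℂ] W := PiLp.proj 2 (fun _ : Γ ⧸ G => W) i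

theorem pr_apply (i : Γ ⧸ G) (x : Tot G W) : pr G W i x = x i := rfl

theorem vPotJ_sum [CompleteSpace W] (hG : IsGalois Γ p) (hA : ∀ γ y, F (γ • y) = A γ (F y) + a γ) {t : Cm q}
    {u : Γ ⧸ G → E → W} (hu : ∀ i, VPotJ p F (A (tr G i) t + a (tr G i)) Θ J (u i)) :
    VPotJ p F t (sumT G Θ) (cjT G J) (fun y => toTot G fun i => u i (tr G i • y)) := by
  intro y e g hy he hg hgd
  have hat : ∀ {y : E} {e : Chart n X} (i : Γ ⧸ G), At e (p y) → At e (p (tr G i • y)) :=
    fun i h => by rw [p_smul hG]; exact h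
  have hev : ∀ᶠ y' in 𝓝 y, AnalyticAt ℂ g (e (p y')) :=
    (ev_iff hG.cov he (Q := fun z => AnalyticAt ℂ g z)).2 hg.eventually_analyticAt
  have key : ∀ i : Γ ⧸ G, ∃ c₀ : W, ∀ᶠ y' in 𝓝 (tr G i • y), F y' = A (tr G i) t + a (tr G i) →
      u i y' = g (e (p y')) i + J (g (e (p y')) i) + c₀ := by
    intro i
    refine hu i (tr G i • y) e (fun z => pr G W i (g z)) (by rw [hA, hy]) (hat i he) ?_ ?_
    · rw [p_smul hG]
      exact ((pr G W i).analyticAt _).comp hg
    · filter_upwards [H988.N6.ev_tr hG (tr G i) (hgd.and hev)] with y' h1 h2 ξ hξ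
      have h3 : F ((tr G i)⁻¹ • y') = t := by
        have h4 := hA (tr G i) ((tr G i)⁻¹ • y')
        rw [smul_inv_smul, h2] at h4
        exact ((A (tr G i)).injective (add_right_cancel h4)).symm
      have h5 : ξ ∈ VS p F ((tr G i)⁻¹ • y') e := by
        rw [VS_smul hG hA]
        exact hξ
      have h6 := h1.1 h3 ξ h5
      have h7 := h1.2
      rw [p_smul hG] at h6 h7
      have h8 : HasFDerivAt (fun z => pr G W i (g z)) ((pr G W i).comp (fderiv ℂ g (e (p y'))))
          (e (p y')) := (pr G W i).hasFDerivAt.comp _ h7.differentiableAt.hasFDerivAt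
      rw [h8.fderiv, ContinuousLinearMap.comp_apply, h6, pr_apply, sumT_apply, smul_inv_smul]
  choose c₀ hc₀ using key
  refine ⟨toTot G c₀, ?_⟩
  filter_upwards [eventually_all.2 fun i => H988.N6.ev_tr' hG (tr G i) (hc₀ i)] with y' h1 h2
  ext i
  have h3 := h1 i (by rw [hA, h2])
  rw [p_smul hG] at h3
  exact h3

theorem jPot_sum [CompleteSpace W] (hG : IsGalois Γ p) (hA : ∀ γ y, F (γ • y) = A γ (F y) + a γ) {y : E}
    {e : Chart n X} {g : Cm n → Tot G W} (he : At e (p y)) (h : JPot p F (sumT G Θ) y e g)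
    (i : Γ ⧸ G) : JPot p F Θ (tr G i • y) e fun z => pr G W i (g z) := by
  have hev : ∀ᶠ y' in 𝓝 y, AnalyticAt ℂ g (e (p y')) :=
    (ev_iff hG.cov he (Q := fun z => AnalyticAt ℂ g z)).2 h.an.eventually_analyticAt
  refine ⟨?_, ?_⟩
  · rw [p_smul hG]
    exact ((pr G W i).analyticAt _).comp h.an
  · filter_upwards [H988.N6.ev_tr hG (tr G i) (h.pot.and hev)] with y' h1 ξ hξ
    have h5 : ξ ∈ VS p F ((tr G i)⁻¹ • y') e := by
      rw [VS_smul hG hA]
      exact hξ
    have h6 := h1.1 ξ h5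
    have h7 := h1.2
    rw [p_smul hG] at h6 h7
    have h8 : HasFDerivAt (fun z => pr G W i (g z)) ((pr G W i).comp (fderiv ℂ g (e (p y'))))
        (e (p y')) := (pr G W i).hasFDerivAt.comp _ h7.differentiableAt.hasFDerivAt
    rw [h8.fderiv, ContinuousLinearMap.comp_apply, h6, pr_apply, sumT_apply, smul_inv_smul]

/-- the two point potential of the direct sum -/
def sumP (G : Subgroup Γ) [Fintype (Γ ⧸ G)] (T : E → E → W) : E → E → Tot G W :=
  fun y y' => toTot G fun i => T (tr G i • y) (tr G i • y')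

theorem sumP_apply (T : E → E → W) (y y' : E) (i : Γ ⧸ G) :
    sumP G T y y' i = T (tr G i • y) (tr G i • y') := rfl

variable {w : Chart n X → Cm n → Matrix (Fin n) (Fin n) ℂ} {B : ℝ}

/-- the regular values are preserved by the affine maps -/
theorem rv_smul (hG : IsGalois Γ p) (hF : HolB p w F B)
    (hA : ∀ γ y, F (γ • y) = A γ (F y) + a γ) (γ : Γ) {t : Cm q} (ht : t ∈ RV n p F) :
    A γ t + a γ ∈ RV n p F := by
  intro y hy
  have h1 : F (γ⁻¹ • y) = t := by
    have h2 := hA γ (γ⁻¹ • y)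
    rw [smul_inv_smul, hy] at h2
    exact ((A γ).injective (add_right_cancel h2)).symm
  have h3 := H551.N6.reg_aff hG.cov (H551.N6.gal_p hG) hG.cont hF hA γ (ht _ h1)
  rwa [smul_inv_smul] at h3

/-- the fibres are connected if the translated fibres are -/
theorem conn_smul (hG : IsGalois Γ p)
    (hA : ∀ γ y, F (γ • y) = A γ (F y) + a γ) (γ : Γ) {t : Cm q} (ht : IsConnected (F ⁻¹' {t})) :
    IsConnected (F ⁻¹' {A γ t + a γ}) := by
  have h1 : F ⁻¹' {A γ t + a γ} = (fun y => γ • y) '' (F ⁻¹' {t}) := by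
    ext y
    constructor
    · intro hy
      refine ⟨γ⁻¹ • y, ?_, smul_inv_smul γ y⟩
      have h2 := hA γ (γ⁻¹ • y)
      rw [smul_inv_smul] at h2
      have hy' : F y = A γ t + a γ := hy
      rw [hy'] at h2
      exact ((A γ).injective (add_right_cancel h2)).symm
    · rintro ⟨y', hy', rfl⟩
      have h2 : F y' = t := hy'
      show F (γ • y') = _
      rw [hA, h2]
  rw [h1]
  exact ht.image _ (hG.cont γ).continuousOn

theorem twoPot_sum [CompleteSpace W] (hG : IsGalois Γ p) (hF : HolB p w F B)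
    (hA : ∀ γ y, F (γ • y) = A γ (F y) + a γ) {T : E → E → W} (hT : TwoPot p F Θ J T) :
    TwoPot p F (sumT G Θ) (cjT G J) (sumP G T) := by
  have hat : ∀ {y : E} {e : Chart n X} (i : Γ ⧸ G), At e (p y) → At e (p (tr G i • y)) :=
    fun i h => by rw [p_smul hG]; exact h
  have hrv : ∀ {y : E} (i : Γ ⧸ G), F y ∈ RV n p F → F (tr G i • y) ∈ RV n p F := fun i h => by
    rw [hA]
    exact rv_smul hG hF hA _ h
  have hFF : ∀ {y y' : E} (i : Γ ⧸ G), F y = F y' → F (tr G i • y) = F (tr G i • y') :=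
    fun i h => by rw [hA, hA, h]
  refine ⟨fun y y' y'' h1 h2 h3 => ?_, fun y y' e e' g g' hFy hr he he' hg hg' => ?_⟩
  · ext i
    rw [PiLp.add_apply, sumP_apply, sumP_apply, sumP_apply]
    exact hT.add _ _ _ (hFF i h1) (hFF i h2) (hrv i h3)
  · choose b hb hev using fun i => hT.loc (tr G i • y) (tr G i • y') e e' _ _ (hFF i hFy)
      (hrv i hr) (hat i he) (hat i he') (jPot_sum hG hA he hg i) (jPot_sum hG hA he' hg' i)
    refine ⟨fun t => toTot G fun i => b i (A (tr G i) t + a (tr G i)), ?_, ?_⟩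
    · refine ((toTot (W := W) G).analyticAt _).comp (AnalyticAt.pi fun i => ?_)
      have h1 : AnalyticAt ℂ (fun t : Cm q => A (tr G i) t + a (tr G i)) (F y) :=
        (((A (tr G i) : Cm q →ₗ[ℂ] Cm q).toContinuousLinearMap).analyticAt _).add analyticAt_const
      have h2 := hb i
      rw [hA] at h2
      exact AnalyticAt.comp (g := b i) (f := fun t : Cm q => A (tr G i) t + a (tr G i)) h2 h1
    · have h3 : ∀ i : Γ ⧸ G, ∀ᶠ z : E × E in 𝓝 (y, y'), F (tr G i • z.1) = F (tr G i • z.2) →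
          T (tr G i • z.1) (tr G i • z.2) = (pr G W i (g' (e' (p (tr G i • z.2)))) -
            pr G W i (g (e (p (tr G i • z.1)))) + b i (F (tr G i • z.1))) +
            J (pr G W i (g' (e' (p (tr G i • z.2)))) - pr G W i (g (e (p (tr G i • z.1)))) +
              b i (F (tr G i • z.1))) := by
        intro i
        have h4 : Tendsto (fun z : E × E => (tr G i • z.1, tr G i • z.2)) (𝓝 (y, y'))
            (𝓝 (tr G i • y, tr G i • y')) :=
          (((hG.cont (tr G i)).comp continuous_fst).prodMk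
            ((hG.cont (tr G i)).comp continuous_snd)).tendsto (y, y')
        exact h4.eventually (hev i)
      filter_upwards [eventually_all.2 h3] with z h4 h5
      ext i
      have h6 := h4 i (hFF i h5)
      rw [p_smul hG, p_smul hG, hA] at h6
      exact h6

variable [G.Normal]

theorem tEqui_sum (hG : IsGalois Γ p) (hF : HolB p w F B)
    (hA : ∀ γ y, F (γ • y) = A γ (F y) + a γ) {π : G →* (W ≃ₗᵢ[ℂ] W)} {T : E → E → W}
    (hT : TEqui n p F π T) : TEqui n p F (indR G π) (sumP G T) := by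
  intro γ y y' hFy hr
  ext i
  rw [sumP_apply, indR_apply, sumP_apply, smul_smul, smul_smul, tr_mul, ← smul_smul, ← smul_smul]
  refine hT (coc G γ i) _ _ ?_ ?_
  · rw [hA, hA, hFy]
  · rw [hA]
    exact rv_smul hG hF hA _ hr

/-- the potentials of the direct sum are equivariant -/
theorem pot_sum [Nonempty E] (hG : IsGalois Γ p) (hA : ∀ γ y, F (γ • y) = A γ (F y) + a γ)
    {c : G → Cm q} (hc : ∀ (g : G) y, F ((g : Γ) • y) = F y + c g) {π : G →* (W ≃ₗᵢ[ℂ] W)}
    {t : Cm q} {u : Γ ⧸ G → E → W} (hu : ∀ i, ∀ g : G, c g = 0 → ∃ b : W, ∀ y,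
      F y = A (tr G i) t + a (tr G i) → u i (g • y) = π g (u i y) + b) (g : G) (hg : c g = 0) :
    ∃ b : Tot G W, ∀ y, F y = t → (toTot G fun i => u i (tr G i • g • y)) =
      indR G π (g : Γ) (toTot G fun i => u i (tr G i • y)) + b := by
  have h1 : ∀ i : Γ ⧸ G, c (MulAut.conjNormal (tr G i) g) = 0 := fun i => by
    rw [c_conj hA hc, hg, map_zero]
  choose b hb using fun i => hu i _ (h1 i)
  refine ⟨toTot G b, fun y hy => ?_⟩
  ext i
  show u i (tr G i • g • y) = indR G π (g : Γ) (toTot G fun i => u i (tr G i • y)) i + b i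
  rw [tr_smul_G, hb i _ (by rw [hA, hy]), indR_mem, conj_tr, toTot_apply]

/-- equivariance of the direct sum of the translates of `S`, up to a factor -/
theorem sumS_equi (hG : IsGalois Γ p) {A : Γ →* (Cm q ≃ₗ[ℂ] Cm q)} (hA1 : ∀ g ∈ G, A g = 1)
    {π : G →* (W ≃ₗᵢ[ℂ] W)}
    (hS : ∀ (g : G) y e, At e (p y) → ∀ ξ, S (g • y) e ξ = π g (S y e ξ)) (γ : Γ) (y : E)
    (e : Chart n X) (he : At e (p y)) (ξ : Fin (q + 1) → Cm n) :
    LinearMap.det (A γ : Cm q →ₗ[ℂ] Cm q) • indR G π γ (sumS G (fun g => A g) S y e ξ) =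
      sumS G (fun g => A g) S (γ • y) e ξ := by
  ext i
  rw [PiLp.smul_apply, indR_apply, sumS_apply, sumS_apply, smul_smul, tr_mul, ← smul_smul (coc G γ i : Γ)]
  have h1 : S ((coc G γ i : Γ) • tr G (i * (γ : Γ ⧸ G)) • y) e ξ =
      π (coc G γ i) (S (tr G (i * (γ : Γ ⧸ G)) • y) e ξ) :=
    hS (coc G γ i) _ e (by rw [p_smul hG]; exact he) ξ
  have h2 : LinearMap.det (A (tr G i) : Cm q →ₗ[ℂ] Cm q) *
      LinearMap.det (A γ : Cm q →ₗ[ℂ] Cm q) =
      LinearMap.det (A (tr G (i * (γ : Γ ⧸ G))) : Cm q →ₗ[ℂ] Cm q) := by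
    have h3 : A (tr G i) * A γ = A (tr G (i * (γ : Γ ⧸ G))) := by
      rw [← map_mul, tr_mul, map_mul, hA1 _ (coc G γ i).2, one_mul]
    rw [← h3, ← LinearMap.det_comp]
    rfl
  rw [h1, map_smul, smul_smul]
  congr 1
  have h3 := H988.N6.det_ne (A (tr G i))
  have h4 := H988.N6.det_ne (A (tr G (i * (γ : Γ ⧸ G))))
  field_simp
  rw [mul_comm, h2]

end

end Vale.Agent.P284.H625.T
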